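import Vale.Agent.P036.Energy

/-! Small triangles in planar point sets with large approximate additive energy. -/

namespace Vale.Agent.P036

open Finset

/-- sup-norm ball of radius `η` around zero -/
def Near (η : ℝ) (v : ℝ × ℝ) : Prop := |v.1| ≤ η ∧ |v.2| ≤ η

lemma near_mono {η η' : ℝ} {v : ℝ × ℝ} (h : η ≤ η') (hv : Near η v) : Near η' v :=
  ⟨hv.1.trans h, hv.2.trans h⟩

lemma near_sub {η η' : ℝ} {v w : ℝ × ℝ} (hv : Near η v) (hw : Near η' w) : Near (η + η') (v - w) :=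
  ⟨(abs_sub _ _).trans (add_le_add hv.1 hw.1), (abs_sub _ _).trans (add_le_add hv.2 hw.2)⟩

lemma near_add {η η' : ℝ} {v w : ℝ × ℝ} (hv : Near η v) (hw : Near η' w) : Near (η + η') (v + w) :=
  ⟨(abs_add_le _ _).trans (add_le_add hv.1 hw.1), (abs_add_le _ _).trans (add_le_add hv.2 hw.2)⟩

lemma near_comm {η : ℝ} {v w : ℝ × ℝ} (h : Near η (v - w)) : Near η (w - v) := by
  simpa only [Near, Prod.fst_sub, Prod.snd_sub, abs_sub_comm] using h

lemma det_near {η η' : ℝ} {v w : ℝ × ℝ} (hv : Near η v) (hw : Near η' w) :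
    |det v w| ≤ 2 * η * η' := by
  have h0 : 0 ≤ η := (abs_nonneg _).trans hv.1
  have h0' : 0 ≤ η' := (abs_nonneg _).trans hw.1
  simp only [det]
  refine (abs_sub _ _).trans ?_
  rw [abs_mul, abs_mul]
  have := mul_le_mul hv.1 hw.2 (abs_nonneg _) h0
  have := mul_le_mul hv.2 hw.1 (abs_nonneg _) h0
  linarith

lemma det_add (u v w : ℝ × ℝ) : det (u + v) w = det u w + det v w := by
  simp only [det, Prod.fst_add, Prod.snd_add]; ring

lemma cell_near {N : ℕ} (hN : 0 < N) {a b : ℝ × ℝ} (h : cell N a = cell N b) : Near (1 / N) (b - a) := by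
  obtain ⟨d1, d2⟩ := cell_diam h
  have hN0 : (0:ℝ) < N := Nat.cast_pos.2 hN
  exact ⟨by rw [le_div_iff₀ hN0, mul_comm, ← abs_of_pos hN0, ← abs_mul]; exact d1,
    by rw [le_div_iff₀ hN0, mul_comm, ← abs_of_pos hN0, ← abs_mul]; exact d2⟩

/-- number of approximate representations of `u` as a difference in `P` -/
noncomputable def repsNear (P : Finset (ℝ × ℝ)) (η : ℝ) (u : ℝ × ℝ) : ℕ :=
  ((P ×ˢ P).filter fun z => |(z.2 - z.1 - u).1| ≤ η ∧ |(z.2 - z.1 - u).2| ≤ η).card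

/-- the points having an approximate translate by `u` in `P` -/
noncomputable def starts (P : Finset (ℝ × ℝ)) (η : ℝ) (u : ℝ × ℝ) : Finset (ℝ × ℝ) := by
  classical exact P.filter fun x => ∃ y ∈ P, Near η (y - x - u)

/-- no `η`-box around a point holds three points -/
def Sparse (P : Finset (ℝ × ℝ)) (η : ℝ) : Prop :=
  ∀ x : ℝ × ℝ, ∀ S ⊆ P, (∀ q ∈ S, Near η (q - x)) → S.card ≤ 2

lemma repsNear_le {P : Finset (ℝ × ℝ)} {η : ℝ} (hs : Sparse P η) (u : ℝ × ℝ) :
    repsNear P η u ≤ 2 * (starts P η u).card := by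
  classical
  refine card_le_mul_card_image_of_maps_to (f := Prod.fst) (fun z hz => ?_) 2 fun x hx => ?_
  · obtain ⟨hz1, hz2⟩ := mem_filter.1 hz
    obtain ⟨p1, p2⟩ := mem_product.1 hz1
    unfold starts
    exact mem_filter.2 ⟨p1, z.2, p2, hz2⟩
  · rw [← card_image_of_injOn (f := Prod.snd)]
    · refine hs (x + u) _ (fun q hq => ?_) fun q hq => ?_
      · obtain ⟨z, hz, rfl⟩ := mem_image.1 hq
        exact (mem_product.1 (mem_filter.1 (mem_filter.1 hz).1).1).2
      · obtain ⟨z, hz, rfl⟩ := mem_image.1 hq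
        obtain ⟨hz1, rfl⟩ := mem_filter.1 hz
        rw [sub_add_eq_sub_sub]
        exact (mem_filter.1 hz1).2
    · intro z hz w hw h
      exact Prod.ext ((mem_filter.1 hz).2.trans (mem_filter.1 hw).2.symm) h

/-- the square of side `η` containing a point -/
noncomputable def bucket (η : ℝ) (p : ℝ × ℝ) : ℤ × ℤ := (⌊p.1 / η⌋, ⌊p.2 / η⌋)

lemma bucket_near {η : ℝ} (hη : 0 < η) {a b : ℝ × ℝ} (h : bucket η a = bucket η b) : Near η (b - a) := by
  simp only [bucket, Prod.mk.injEq] at h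
  have h1 := Int.abs_sub_lt_one_of_floor_eq_floor h.1
  have h2 := Int.abs_sub_lt_one_of_floor_eq_floor h.2
  rw [← sub_div, abs_div, abs_of_pos hη, div_lt_one hη] at h1 h2
  exact ⟨by rw [Prod.fst_sub, abs_sub_comm]; exact h1.le, by rw [Prod.snd_sub, abs_sub_comm]; exact h2.le⟩

lemma bucket_nbr {η : ℝ} (hη : 0 < η) {a b : ℝ × ℝ} (h : Near η (a - b)) :
    bucket η a - bucket η b ∈ ({-1, 0, 1} : Finset ℤ) ×ˢ ({-1, 0, 1} : Finset ℤ) := by
  have e : ∀ x y : ℝ, |x - y| ≤ η → ⌊x / η⌋ - ⌊y / η⌋ ∈ ({-1, 0, 1} : Finset ℤ) := by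
    intro x y hxy
    have := floor_close (a := x / η) (b := y / η) (by
      rw [← sub_div, abs_div, abs_of_pos hη, div_le_one hη]; exact hxy)
    simp only [mem_insert, mem_singleton] at this ⊢
    omega
  exact mem_product.2 ⟨e _ _ h.1, e _ _ h.2⟩

/-- approximate energy is carried by short approximate differences -/
lemma energy_le_near {P : Finset (ℝ × ℝ)} (N : ℕ) {η R : ℝ} (hη : 0 < η) (hR0 : 0 ≤ R) (hs : Sparse P η)
    (hR : ∀ a ∈ P, ∀ b ∈ P, cell N a = cell N b → ¬ Near η (b - a) → (repsNear P η (b - a) : ℝ) ≤ R) :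
    ((((P ×ˢ P) ×ˢ (P ×ˢ P)).filter fun z =>
      |z.1.1.1 + z.1.2.1 - z.2.1.1 - z.2.2.1| ≤ η ∧ |z.1.1.2 + z.1.2.2 - z.2.1.2 - z.2.2.2| ≤ η).card : ℝ)
      ≤ 9 * (P.card : ℝ) ^ 2 * (4 * (P.image (cell N)).card + R) := by
  classical
  rcases P.eq_empty_or_nonempty with rfl | hne
  · simp
  have hn0 : (0:ℝ) < P.card := Nat.cast_pos.2 (card_pos.2 hne)
  set g := fun z : (ℝ × ℝ) × (ℝ × ℝ) => bucket η (z.1 + z.2)
  set T := (P ×ˢ P).image g
  set r := fun B => ((((P ×ˢ P).filter fun z => g z = B).card : ℕ) : ℝ)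
  have h1 : ((((P ×ˢ P) ×ˢ (P ×ˢ P)).filter fun z =>
      |z.1.1.1 + z.1.2.1 - z.2.1.1 - z.2.2.1| ≤ η ∧ |z.1.1.2 + z.1.2.2 - z.2.1.2 - z.2.2.2| ≤ η).card : ℝ)
      ≤ ∑ z ∈ P ×ˢ P, ∑ o ∈ ({-1, 0, 1} : Finset ℤ) ×ˢ ({-1, 0, 1} : Finset ℤ), r (g z + o) := by
    rw [card_filter, Nat.cast_sum, sum_product]
    refine sum_le_sum fun z hz => ?_
    simp only [r]
    rw [← Nat.cast_sum, ← Nat.cast_sum]
    refine Nat.cast_le.2 ?_
    rw [← card_filter]
    refine le_trans (card_le_card (t := (({-1, 0, 1} : Finset ℤ) ×ˢ ({-1, 0, 1} : Finset ℤ)).biUnion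
      fun o => (P ×ˢ P).filter fun w => g w = g z + o) fun w hw => ?_) card_biUnion_le
    obtain ⟨hw1, hw2, hw3⟩ := mem_filter.1 hw
    have hnear : Near η ((w.1 + w.2) - (z.1 + z.2)) := near_comm
      ⟨by simpa only [Prod.fst_sub, Prod.fst_add, sub_add_eq_sub_sub] using hw2,
       by simpa only [Prod.snd_sub, Prod.snd_add, sub_add_eq_sub_sub] using hw3⟩
    exact mem_biUnion.2 ⟨g w - g z, bucket_nbr hη hnear, mem_filter.2 ⟨hw1, (add_sub_cancel _ _).symm⟩⟩
  have hz0 : ∀ B, B ∉ T → r B = 0 := by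
    intro B hB
    simp only [r, Nat.cast_eq_zero, card_eq_zero]
    exact filter_eq_empty_iff.2 fun z hz h => hB (mem_image.2 ⟨z, hz, h⟩)
  have h2 : ∀ o, ∑ z ∈ P ×ˢ P, r (g z + o) ≤ ∑ B ∈ T, r B ^ 2 := by
    intro o
    rw [← sum_fiberwise_of_maps_to (t := T) (g := g) fun z hz => mem_image_of_mem g hz]
    have hshift : ∑ B ∈ T, r (B + o) ^ 2 ≤ ∑ B ∈ T, r B ^ 2 := by
      have e : ∑ B ∈ T, r (B + o) ^ 2 = ∑ B ∈ T.image (· + o), r B ^ 2 :=
        (sum_image (f := fun B => r B ^ 2) (g := (· + o)) fun x _ y _ h => add_right_cancel h).symm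
      rw [e, ← sum_inter_add_sum_sdiff (T.image (· + o)) T,
        sum_eq_zero (s := T.image (· + o) \ T) (fun B hB => by rw [hz0 B (mem_sdiff.1 hB).2]; simp), add_zero]
      exact sum_le_sum_of_subset_of_nonneg inter_subset_right fun B _ _ => sq_nonneg _
    calc ∑ B ∈ T, ∑ z ∈ (P ×ˢ P).filter (fun z => g z = B), r (g z + o)
        = ∑ B ∈ T, r B * r (B + o) := sum_congr rfl fun B _ => by
          rw [sum_congr rfl (fun z hz => by rw [(mem_filter.1 hz).2]), sum_const, nsmul_eq_mul]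
      _ ≤ ∑ B ∈ T, (r B ^ 2 + r (B + o) ^ 2) / 2 := sum_le_sum fun B _ => by
          have := two_mul_le_add_sq (r B) (r (B + o)); linarith
      _ ≤ ∑ B ∈ T, r B ^ 2 := by rw [← sum_div, sum_add_distrib]; linarith
  set cls := fun c => P.filter fun q => cell N q = c
  set cnt := fun c => ((cls c).card : ℝ)
  have hpos : ∀ c ∈ P.image (cell N), 0 < cnt c := fun c hc => by
    obtain ⟨p, hp, rfl⟩ := mem_image.1 hc
    exact Nat.cast_pos.2 (card_pos.2 ⟨p, mem_filter.2 ⟨hp, rfl⟩⟩)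
  have hcnt : ∑ c ∈ P.image (cell N), cnt c = P.card := by
    simp only [cnt, cls]
    exact_mod_cast (card_eq_sum_card_image (cell N) P).symm
  set rc := fun B c => (((cls c ×ˢ P).filter fun z => g z = B).card : ℝ)
  have hr : ∀ B, r B = ∑ c ∈ P.image (cell N), rc B c := by
    intro B
    simp only [r]
    rw [card_eq_sum_card_fiberwise (f := fun z => cell N z.1) (t := P.image (cell N))
      fun z hz => mem_image_of_mem _ (mem_product.1 (mem_filter.1 hz).1).1, Nat.cast_sum]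
    refine sum_congr rfl fun c _ => congrArg Nat.cast (congrArg card ?_)
    ext z
    simp only [cls, mem_filter, mem_product]
    tauto
  have h3 : ∑ B ∈ T, r B ^ 2 ≤ (P.card : ℝ) * ∑ c ∈ P.image (cell N), (∑ B ∈ T, rc B c ^ 2) / cnt c := by
    rw [sum_congr rfl fun c _ => sum_div T (fun B => rc B c ^ 2) (cnt c), sum_comm, mul_sum]
    refine sum_le_sum fun B _ => ?_
    have h := sq_sum_div_le_sum_sq_div (P.image (cell N)) (rc B) hpos
    rw [hcnt, ← hr, div_le_iff₀ hn0] at h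
    linarith
  have h4 : ∀ c ∈ P.image (cell N), (∑ B ∈ T, rc B c ^ 2) / cnt c ≤ 4 * P.card + cnt c * R / 1 := by
    intro c hc
    rw [div_one, div_le_iff₀ (hpos c hc)]
    have e : ∑ B ∈ T, rc B c ^ 2 = ∑ z ∈ cls c ×ˢ P, rc (g z) c := by
      rw [← sum_fiberwise_of_maps_to (t := T) (g := g)
        fun z hz => mem_image_of_mem g (mem_product.2 ⟨(mem_filter.1 (mem_product.1 hz).1).1, (mem_product.1 hz).2⟩)]
      refine sum_congr rfl fun B _ => ?_
      rw [sum_congr rfl (fun z hz => by rw [(mem_filter.1 hz).2]), sum_const, nsmul_eq_mul, sq]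
    have e2 : ∀ z ∈ cls c ×ˢ P, rc (g z) c ≤ ∑ b ∈ cls c, ((P.filter fun q => Near η (z.2 - q - (b - z.1))).card : ℝ) := by
      intro z _
      simp only [rc]
      rw [← Nat.cast_sum]
      refine Nat.cast_le.2 (le_trans (card_le_card (t := (cls c).biUnion fun b =>
        (P.filter fun q => Near η (z.2 - q - (b - z.1))).image fun q => (b, q)) fun w hw => ?_) ?_)
      · obtain ⟨hw1, hw2⟩ := mem_filter.1 hw
        obtain ⟨hb, hq⟩ := mem_product.1 hw1
        refine mem_biUnion.2 ⟨w.1, hb, mem_image.2 ⟨w.2, mem_filter.2 ⟨hq, ?_⟩, rfl⟩⟩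
        have := bucket_near hη hw2
        rwa [show z.2 - w.2 - (w.1 - z.1) = (z.1 + z.2) - (w.1 + w.2) by abel]
      · exact card_biUnion_le.trans (sum_le_sum fun b _ => card_image_le)
    have e3 : ∀ a b : ℝ × ℝ, (∑ q ∈ P, (P.filter fun q' => Near η (q - q' - (b - a))).card) ≤ repsNear P η (b - a) := by
      intro a b
      refine le_of_eq ?_
      simp only [repsNear, card_filter]
      rw [sum_product_right]
      exact sum_congr rfl fun x _ => sum_congr rfl fun y _ => if_congr Iff.rfl rfl rfl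
    rw [e]
    calc ∑ z ∈ cls c ×ˢ P, rc (g z) c
        ≤ ∑ z ∈ cls c ×ˢ P, ∑ b ∈ cls c, ((P.filter fun q => Near η (z.2 - q - (b - z.1))).card : ℝ) := sum_le_sum e2
      _ ≤ ∑ a ∈ cls c, ∑ b ∈ cls c, (repsNear P η (b - a) : ℝ) := by
          rw [sum_product]
          refine sum_le_sum fun a _ => ?_
          rw [sum_comm]
          refine sum_le_sum fun b _ => ?_
          rw [← Nat.cast_sum]
          exact Nat.cast_le.2 (e3 a b)
      _ ≤ ∑ a ∈ cls c, (4 * (P.card:ℝ) + cnt c * R) := by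
          refine sum_le_sum fun a ha => ?_
          obtain ⟨haP, hac⟩ := mem_filter.1 ha
          rw [← sum_filter_add_sum_filter_not (cls c) (fun b => Near η (b - a))]
          refine add_le_add ?_ ?_
          · refine (sum_le_card_nsmul _ _ (2 * (P.card:ℝ)) fun b _ => ?_).trans ?_
            · refine (Nat.cast_le.2 (repsNear_le hs _)).trans ?_
              push_cast
              refine mul_le_mul_of_nonneg_left (Nat.cast_le.2 ?_) two_pos.le
              unfold starts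
              exact card_filter_le _ _
            · rw [nsmul_eq_mul, ← mul_assoc]
              refine mul_le_mul_of_nonneg_right ?_ hn0.le
              have : ((cls c).filter fun b => Near η (b - a)).card ≤ 2 :=
                hs a _ (fun b hb => (mem_filter.1 (mem_filter.1 hb).1).1) fun b hb => (mem_filter.1 hb).2
              have : (((cls c).filter fun b => Near η (b - a)).card : ℝ) ≤ 2 := by exact_mod_cast this
              linarith
          · refine (sum_le_card_nsmul _ _ R fun b hb => ?_).trans ?_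
            · obtain ⟨hb1, hb2⟩ := mem_filter.1 hb
              obtain ⟨hbP, hbc⟩ := mem_filter.1 hb1
              exact hR a haP b hbP (hac.trans hbc.symm) hb2
            · rw [nsmul_eq_mul]
              exact mul_le_mul_of_nonneg_right (Nat.cast_le.2 (card_filter_le _ _)) hR0
      _ = _ := by rw [sum_const, nsmul_eq_mul]; simp only [cnt]; ring
  refine h1.trans ?_
  rw [sum_comm]
  refine (sum_le_card_nsmul _ _ _ fun o _ => h2 o).trans ?_
  rw [nsmul_eq_mul, show ((({-1, 0, 1} : Finset ℤ) ×ˢ ({-1, 0, 1} : Finset ℤ)).card : ℝ) = 9 by simp]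
  have hsum := h3.trans (mul_le_mul_of_nonneg_left (sum_le_sum h4) hn0.le)
  have e : ∑ c ∈ P.image (cell N), (4 * (P.card : ℝ) + cnt c * R / 1) =
      (P.card : ℝ) * (4 * (P.image (cell N)).card + R) := by
    simp only [div_one]
    rw [sum_add_distrib, sum_const, nsmul_eq_mul, ← sum_mul, hcnt]; ring
  rw [e] at hsum
  linarith

/-- many approximate translates by a short vector force a thin triangle -/
lemma triangle_of_near_translate {P : Finset (ℝ × ℝ)}
    (hP : ∀ p ∈ P, p.1 ∈ Set.Icc (0:ℝ) 1 ∧ p.2 ∈ Set.Icc (0:ℝ) 1)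
    {u : ℝ × ℝ} {δ η : ℝ} (hu : Near δ u) (hfar : ¬ Near η u) (A : Finset (ℝ × ℝ))
    (hA : ∀ a ∈ A, a ∈ P ∧ ∃ y ∈ P, Near η (y - a - u)) {K : ℕ} (hK : 1 ≤ K)
    (hcard : 2 * ((K + 1) * (K + 1)) ≤ A.card) :
    ∃ p ∈ P, ∃ q ∈ P, ∃ r ∈ P, p ≠ q ∧ p ≠ r ∧ q ≠ r ∧
      |det (q - p) (r - p)| ≤ 32 * δ * K / A.card + 2 * η / K + 4 * δ * η + 2 * η ^ 2 := by
  classical
  have hδ : 0 ≤ δ := (abs_nonneg _).trans hu.1
  have hApos : 0 < A.card := by nlinarith
  obtain ⟨a0, ha0⟩ := card_pos.1 hApos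
  have hη : 0 ≤ η := by obtain ⟨-, y, -, hy⟩ := hA a0 ha0; exact (abs_nonneg _).trans hy.1
  have hKR : (1:ℝ) ≤ K := by exact_mod_cast hK
  obtain ⟨c, hc, hcc⟩ : ∃ c ∈ A.image (cell K), (A.card : ℝ) / ((K + 1) * (K + 1)) ≤ (A.filter fun a => cell K a = c).card := by
    by_contra hcon
    push Not at hcon
    have h := sum_lt_sum_of_nonempty ((card_pos.1 hApos).image _) hcon
    rw [sum_const, nsmul_eq_mul, show (∑ c ∈ A.image (cell K), ((A.filter fun a => cell K a = c).card : ℝ)) = A.card by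
      exact_mod_cast (card_eq_sum_card_image (cell K) A).symm] at h
    have hk : ((A.image (cell K)).card : ℝ) ≤ ((K:ℝ) + 1) * (K + 1) := by
      exact_mod_cast cell_card_le (N := K) A fun a ha => hP a (hA a ha).1
    have h' := mul_le_mul_of_nonneg_right hk (show (0:ℝ) ≤ (A.card : ℝ) / ((K + 1) * (K + 1)) by positivity)
    rw [mul_div_cancel₀ _ (by positivity)] at h'
    linarith
  set S := A.filter fun a => cell K a = c
  have hS2R : (2:ℝ) ≤ S.card := by
    refine le_trans ?_ hcc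
    rw [le_div_iff₀ (by positivity)]
    exact_mod_cast hcard
  have hS2 : 2 ≤ S.card := by exact_mod_cast hS2R
  obtain ⟨s0, hs0⟩ := card_pos.1 (show 0 < S.card by omega)
  have hrange : ∀ s ∈ S, det u s0 - 2 * δ / K ≤ det u s ∧ det u s ≤ det u s0 + 2 * δ / K := by
    intro s hs
    have h := det_near hu (cell_near (show 0 < K by omega) ((mem_filter.1 hs0).2.trans (mem_filter.1 hs).2.symm))
    rw [det_sub, abs_le, show 2 * δ * (1 / (K:ℝ)) = 2 * δ / K by ring] at h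
    constructor <;> linarith
  obtain ⟨a, ha, b, hb, hab, hd⟩ := two_close S (det u) hS2 hrange
  obtain ⟨haA, hac⟩ := mem_filter.1 ha
  obtain ⟨hbA, hbc⟩ := mem_filter.1 hb
  obtain ⟨haP, y, hyP, hy⟩ := hA a haA
  obtain ⟨hbP, z, hzP, hz⟩ := hA b hbA
  have hnear : Near (1 / K) (b - a) := cell_near (show 0 < K by omega) (hac.trans hbc.symm)
  have hthin : |det u (b - a)| ≤ 32 * δ * K / A.card := by
    rw [det_sub, abs_sub_comm]
    refine hd.trans ?_
    rw [Nat.cast_sub (by omega : 1 ≤ S.card), Nat.cast_one,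
      show det u s0 + 2 * δ / K - (det u s0 - 2 * δ / K) = 4 * δ / K by ring]
    have hAR : (0:ℝ) < A.card := Nat.cast_pos.2 hApos
    have e1 : (A.card : ℝ) / (8 * ((K:ℝ) * K)) ≤ (S.card : ℝ) - 1 := by
      have : (A.card : ℝ) / (4 * ((K:ℝ) * K)) ≤ S.card := le_trans (div_le_div_of_nonneg_left hAR.le (by positivity)
        (by nlinarith)) hcc
      rw [show (A.card : ℝ) / (8 * ((K:ℝ) * K)) = (A.card : ℝ) / (4 * ((K:ℝ) * K)) / 2 by ring]
      linarith
    refine (div_le_div_of_nonneg_left (by positivity) (by positivity) e1).trans (le_of_eq ?_)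
    field_simp
    ring
  have h1 : 0 ≤ 4 * δ * η + 2 * η ^ 2 := by positivity
  have h2 : 0 ≤ 32 * δ * K / A.card + 2 * η / K := by positivity
  have hya : y ≠ a := by
    rintro rfl
    exact hfar (by simpa [Near] using hy)
  by_cases hyb : y = b
  · subst hyb
    have hzy : z ≠ y := by
      rintro rfl
      exact hfar (by simpa [Near] using hz)
    have hza : z ≠ a := by
      rintro rfl
      have h := near_add hy hz
      rw [show y - z - u + (z - y - u) = -(u + u) by abel] at h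
      obtain ⟨g1, g2⟩ := h
      simp only [Prod.fst_neg, Prod.snd_neg, Prod.fst_add, Prod.snd_add, abs_neg] at g1 g2
      rw [← two_mul, abs_mul, abs_two] at g1 g2
      exact hfar ⟨by linarith, by linarith⟩
    refine ⟨a, haP, y, hyP, z, hzP, hya.symm, hza.symm, hzy.symm, ?_⟩
    have e : det (y - a) (z - a) = det u (z - y - u - (y - a - u)) + det (y - a - u) (z - y - u) := by
      simp only [det, Prod.fst_sub, Prod.snd_sub]; ring
    rw [e]
    refine (abs_add_le _ _).trans ?_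
    have := det_near hu (near_sub hz hy)
    have := det_near hy hz
    linarith
  · refine ⟨a, haP, y, hyP, b, hbP, hya.symm, hab, hyb, ?_⟩
    rw [show y - a = u + (y - a - u) by abel, det_add]
    refine (abs_add_le _ _).trans ?_
    have := det_near hy hnear
    rw [show 2 * η * (1 / (K:ℝ)) = 2 * η / K by ring] at this
    linarith

lemma scale_bounds {ρ η x : ℝ} (hρ0 : 0 < ρ) (hη : 0 < η) (hx0 : 0 < x) (hxx : x * x = 1 / (90 * ρ))
    (hηρ : η ≤ Real.sqrt ρ) :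
    1 / x ^ 3 ≤ 900 * (ρ * Real.sqrt ρ) ∧ η / x ≤ 30 * Real.sqrt (η * (ρ * Real.sqrt ρ)) ∧
      Real.sqrt (η * x ^ 3) / x ^ 3 ≤ 30 * Real.sqrt (η * (ρ * Real.sqrt ρ)) ∧
      η / Real.sqrt (η * x ^ 3) = Real.sqrt (η * x ^ 3) / x ^ 3 := by
  set s := Real.sqrt ρ
  have hs0 : 0 < s := Real.sqrt_pos.2 hρ0
  have hsx0 : 0 ≤ s * x := (mul_pos hs0 hx0).le
  have hρx : ρ * x ^ 2 = 1 / 90 := by rw [sq, hxx]; field_simp
  have hsq : (s * x) ^ 2 = 1 / 90 := by
    rw [mul_pow, sq, Real.mul_self_sqrt hρ0.le, hρx]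
  have h10 : 1 ≤ 10 * (s * x) := by
    by_contra h
    have := pow_lt_pow_left₀ (show s * x < 1 / 10 by linarith) hsx0 two_ne_zero
    linarith
  have hle1 : s * x ≤ 1 := by
    by_contra h
    have := pow_lt_pow_left₀ (not_le.1 h) zero_le_one two_ne_zero
    linarith
  have hx3 : 1 / x ^ 3 ≤ 900 * (ρ * s) := by
    rw [div_le_iff₀ (pow_pos hx0 3), show 900 * (ρ * s) * x ^ 3 = 900 * (ρ * x ^ 2) * (s * x) by ring, hρx]
    linarith
  have hkey : ∀ y, y ^ 2 ≤ η * (1 / x ^ 3) → y ≤ 30 * Real.sqrt (η * (ρ * s)) := by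
    intro y hy
    have h : y ≤ Real.sqrt (900 * (η * (ρ * s))) := Real.le_sqrt_of_sq_le (hy.trans (by
      rw [show 900 * (η * (ρ * s)) = η * (900 * (ρ * s)) by ring]
      exact mul_le_mul_of_nonneg_left hx3 hη.le))
    rwa [Real.sqrt_mul (by norm_num), show Real.sqrt 900 = 30 by
      rw [show (900:ℝ) = 30 ^ 2 by norm_num, Real.sqrt_sq (by norm_num)]] at h
  have hT : 0 < η * x ^ 3 := mul_pos hη (pow_pos hx0 3)
  refine ⟨hx3, hkey _ ?_, hkey _ ?_, ?_⟩
  · have h1 : η * η ≤ η * (1 / x) :=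
      mul_le_mul_of_nonneg_left (hηρ.trans ((le_div_iff₀ hx0).2 hle1)) hη.le
    calc (η / x) ^ 2 = η * η * (1 / x ^ 2) := by field_simp
      _ ≤ η * (1 / x) * (1 / x ^ 2) := mul_le_mul_of_nonneg_right h1 (by positivity)
      _ = η * (1 / x ^ 3) := by field_simp
  · rw [div_pow, Real.sq_sqrt hT.le]
    exact le_of_eq (by field_simp)
  · rw [div_eq_div_iff (Real.sqrt_pos.2 hT).ne' (pow_pos hx0 3).ne', Real.mul_self_sqrt hT.le]

/-- Heilbronn triangles in sets with large approximate additive energy -/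
theorem small_triangle_energy_near (P : Finset (ℝ × ℝ)) (η : ℝ)
    (hP : ∀ p ∈ P, p.1 ∈ Set.Icc (0:ℝ) 1 ∧ p.2 ∈ Set.Icc (0:ℝ) 1) (hn : 3 ≤ P.card) (hη : 0 < η)
    (ρ : ℝ) (hρ : ρ = (P.card : ℝ) ^ 2 / (((P ×ˢ P) ×ˢ (P ×ˢ P)).filter fun z =>
      |z.1.1.1 + z.1.2.1 - z.2.1.1 - z.2.2.1| ≤ η ∧ |z.1.1.2 + z.1.2.2 - z.2.1.2 - z.2.2.2| ≤ η).card)
    (hηρ : η ≤ Real.sqrt ρ) :
    ∃ p ∈ P, ∃ q ∈ P, ∃ r ∈ P, p ≠ q ∧ p ≠ r ∧ q ≠ r ∧
      |(q.1 - p.1) * (r.2 - p.2) - (q.2 - p.2) * (r.1 - p.1)| / 2 ≤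
        60000 * (ρ * Real.sqrt ρ + Real.sqrt (η * (ρ * Real.sqrt ρ))) := by
  classical
  have hρ0 : 0 < ρ := by
    by_contra h
    rw [Real.sqrt_eq_zero_of_nonpos (not_lt.1 h)] at hηρ
    linarith
  set s := Real.sqrt ρ
  have hs0 : 0 < s := Real.sqrt_pos.2 hρ0
  have hss : s * s = ρ := Real.mul_self_sqrt hρ0.le
  set w := ρ * s
  have hw0 : 0 < w := mul_pos hρ0 hs0
  set v := Real.sqrt (η * w)
  have hv0 : 0 ≤ v := Real.sqrt_nonneg _
  have hsmall : ∀ x ∈ P, ∀ y ∈ P, ∀ z ∈ P, x ≠ y → x ≠ z → y ≠ z → |det (y - x) (z - x)| / 2 ≤ 60000 * (w + v) →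
      ∃ p ∈ P, ∃ q ∈ P, ∃ r ∈ P, p ≠ q ∧ p ≠ r ∧ q ≠ r ∧
        |(q.1 - p.1) * (r.2 - p.2) - (q.2 - p.2) * (r.1 - p.1)| / 2 ≤ 60000 * (w + v) :=
    fun x hx y hy z hz e1 e2 e3 e4 => ⟨x, hx, y, hy, z, hz, e1, e2, e3, e4⟩
  set M := 1 / (90 * ρ) with hM
  have hM0 : 0 < M := by positivity
  by_cases hbig : M < 16
  · have hρbig : 1 / 1440 < ρ := by
      rw [hM, div_lt_iff₀ (by positivity)] at hbig; linarith
    have hs : 1 / 40 ≤ s := Real.le_sqrt_of_sq_le (by linarith)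
    obtain ⟨p, q, r, hp, hq, hr, e1, e2, e3⟩ := two_lt_card_iff.1 (show 2 < P.card by omega)
    refine hsmall p hp q hq r hr e1 e2 e3 ?_
    have b : ∀ x ∈ P, Near 1 (x - p) := fun x hx => by
      obtain ⟨⟨a1, a2⟩, a3, a4⟩ := hP x hx
      obtain ⟨⟨b1, b2⟩, b3, b4⟩ := hP p hp
      exact ⟨abs_le.2 ⟨by simp; linarith, by simp; linarith⟩, abs_le.2 ⟨by simp; linarith, by simp; linarith⟩⟩
    have hd := det_near (b q hq) (b r hr)
    have : 1 / 1440 * (1 / 40) ≤ w := mul_le_mul hρbig.le hs (by norm_num) hρ0.le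
    linarith
  push Not at hbig
  have hη2 : η ^ 2 ≤ v := by
    refine Real.le_sqrt_of_sq_le ?_
    have h3 : η ^ 3 ≤ s ^ 3 := pow_le_pow_left₀ hη.le hηρ 3
    calc (η ^ 2) ^ 2 = η * η ^ 3 := by ring
      _ ≤ η * s ^ 3 := mul_le_mul_of_nonneg_left h3 hη.le
      _ = η * w := by simp only [w]; rw [← hss]; ring
  by_cases hs3 : Sparse P η
  swap
  · simp only [Sparse, not_forall, not_le] at hs3
    obtain ⟨x, S, hSP, hS, hcard⟩ := hs3
    obtain ⟨p, q, r, hp, hq, hr, e1, e2, e3⟩ := two_lt_card_iff.1 hcard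
    refine hsmall p (hSP hp) q (hSP hq) r (hSP hr) e1 e2 e3 ?_
    have a1 := near_sub (hS q hq) (hS p hp)
    have a2 := near_sub (hS r hr) (hS p hp)
    rw [show q - x - (p - x) = q - p by abel] at a1
    rw [show r - x - (p - x) = r - p by abel] at a2
    have := det_near a1 a2
    linarith
  set x := Real.sqrt M
  have hx4 : 4 ≤ x := Real.le_sqrt_of_sq_le (by linarith)
  have hxx : x * x = M := Real.mul_self_sqrt hM0.le
  set N := ⌊x⌋₊ - 1
  have hfl : 4 ≤ ⌊x⌋₊ := Nat.le_floor (by exact_mod_cast hx4)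
  have hN1 : (N:ℝ) + 1 ≤ x := by
    have h : N + 1 = ⌊x⌋₊ := by omega
    have h' : (N:ℝ) + 1 = (⌊x⌋₊ : ℝ) := by exact_mod_cast h
    rw [h']; exact Nat.floor_le (Real.sqrt_nonneg _)
  have hN3 : x ≤ 3 * (N:ℝ) := by
    have h : (N:ℝ) = (⌊x⌋₊ : ℝ) - 1 := by
      simp only [N]; rw [Nat.cast_sub (by omega), Nat.cast_one]
    rw [h]; linarith [Nat.lt_floor_add_one x]
  have hN0 : (0:ℝ) < N := by linarith
  have hcells : ((P.image (cell N)).card : ℝ) ≤ M := by
    refine le_trans (Nat.cast_le.2 (cell_card_le (N := N) P hP)) (le_trans ?_ hxx.le)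
    push_cast
    exact mul_le_mul hN1 hN1 (by linarith) (by linarith)
  have hE : (P.card : ℝ) ^ 2 * (90 * M) = (((P ×ˢ P) ×ˢ (P ×ˢ P)).filter fun z =>
      |z.1.1.1 + z.1.2.1 - z.2.1.1 - z.2.2.1| ≤ η ∧ |z.1.1.2 + z.1.2.2 - z.2.1.2 - z.2.2.2| ≤ η).card := by
    rcases eq_or_ne ((((P ×ˢ P) ×ˢ (P ×ˢ P)).filter fun z =>
      |z.1.1.1 + z.1.2.1 - z.2.1.1 - z.2.2.1| ≤ η ∧ |z.1.1.2 + z.1.2.2 - z.2.1.2 - z.2.2.2| ≤ η).card : ℝ) 0 with h | h
    · rw [h, div_zero] at hρ; linarith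
    · rw [hM, hρ]; field_simp
  obtain ⟨a, -, b, -, hc, hfar, hrep⟩ : ∃ a ∈ P, ∃ b ∈ P, cell N a = cell N b ∧ ¬ Near η (b - a) ∧
      M ≤ ((starts P η (b - a)).card : ℝ) := by
    by_contra hcon
    push Not at hcon
    have h := energy_le_near N (R := 2 * M) hη (by positivity) hs3 fun a ha b hb h1 h2 => by
      refine le_trans (Nat.cast_le.2 (repsNear_le hs3 _)) ?_
      push_cast
      linarith [hcon a ha b hb h1 h2]
    have h' : 9 * (P.card : ℝ) ^ 2 * (4 * ((P.image (cell N)).card : ℝ) + 2 * M) ≤ 9 * (P.card : ℝ) ^ 2 * (6 * M) :=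
      mul_le_mul_of_nonneg_left (by linarith) (by positivity)
    have : (0:ℝ) < (P.card : ℝ) ^ 2 * M := mul_pos (pow_pos (Nat.cast_pos.2 (by omega)) 2) hM0
    linarith
  set T := Real.sqrt (η * x ^ 3)
  have hT0 : 0 < T := Real.sqrt_pos.2 (by positivity)
  set K := min (max 1 ⌈T⌉₊) ⌊x / 4⌋₊
  have hKf : 1 ≤ ⌊x / 4⌋₊ := Nat.le_floor (by simp only [Nat.cast_one]; linarith)
  have hK1 : 1 ≤ K := le_min (le_max_left _ _) hKf
  have hK0 : (0:ℝ) < K := Nat.cast_pos.2 hK1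
  have hK4 : (K:ℝ) ≤ x / 4 := (Nat.cast_le.2 (min_le_right _ _)).trans (Nat.floor_le (by linarith))
  have hKT : (K:ℝ) ≤ T + 1 := by
    refine (Nat.cast_le.2 (min_le_left _ _)).trans ?_
    rw [Nat.cast_max, Nat.cast_one]
    exact max_le (by linarith) (Nat.ceil_lt_add_one hT0.le).le
  have hinv : η / K ≤ η / T + 8 * η / x := by
    by_cases hle : max 1 ⌈T⌉₊ ≤ ⌊x / 4⌋₊
    · have : T ≤ (K:ℝ) := by
        simp only [K, min_eq_left hle]
        exact (Nat.le_ceil T).trans (Nat.cast_le.2 (le_max_right _ _))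
      have h1 : η / K ≤ η / T := div_le_div_of_nonneg_left hη.le hT0 this
      have h2 : 0 ≤ 8 * η / x := by positivity
      linarith
    · have : x / 8 ≤ (K:ℝ) := by
        simp only [K, min_eq_right (not_le.1 hle).le]
        have h1 : (1:ℝ) ≤ ⌊x / 4⌋₊ := by exact_mod_cast hKf
        linarith [Nat.lt_floor_add_one (x / 4)]
      have h1 : η / K ≤ η / (x / 8) := div_le_div_of_nonneg_left hη.le (by linarith) this
      have h2 : η / (x / 8) = 8 * η / x := by field_simp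
      have h3 : 0 ≤ η / T := by positivity
      linarith
  have hA : ∀ a' ∈ starts P η (b - a), a' ∈ P ∧ ∃ y ∈ P, Near η (y - a' - (b - a)) := fun a' h => by
    unfold starts at h
    exact mem_filter.1 h
  have hcard : 2 * ((K + 1) * (K + 1)) ≤ (starts P η (b - a)).card := by
    have h1 : (K:ℝ) + 1 ≤ x / 2 := by linarith
    have h2 : 2 * (((K:ℝ) + 1) * (K + 1)) ≤ x * x := by
      have := mul_le_mul h1 h1 (by positivity) (by linarith)
      nlinarith
    exact_mod_cast h2.trans (hxx.le.trans hrep)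
  have hu := cell_near (show 0 < N by exact_mod_cast hN0) hc
  obtain ⟨p, hp, q, hq, r, hr, e1, e2, e3, hdet⟩ := triangle_of_near_translate hP hu hfar _ hA hK1 hcard
  refine hsmall p hp q hq r hr e1 e2 e3 ?_
  have hx0 : 0 < x := by linarith
  have hN' : 1 / (N:ℝ) ≤ 3 / x := by
    rw [div_le_div_iff₀ hN0 hx0]; linarith
  obtain ⟨hx3, hηx, hTx, hηT⟩ : 1 / x ^ 3 ≤ 900 * w ∧ η / x ≤ 30 * v ∧ T / x ^ 3 ≤ 30 * v ∧ η / T = T / x ^ 3 :=
    scale_bounds hρ0 hη hx0 (hxx.trans hM) hηρ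
  have hmain : 32 * (1 / (N:ℝ)) * K / (starts P η (b - a)).card ≤ 96 * (T / x ^ 3) + 96 * (1 / x ^ 3) := by
    calc 32 * (1 / (N:ℝ)) * K / (starts P η (b - a)).card
        ≤ 32 * (3 / x) * (T + 1) / M := by
          refine div_le_div₀ (by positivity) ?_ hM0 hrep
          exact mul_le_mul (mul_le_mul_of_nonneg_left hN' (by norm_num)) hKT hK0.le (by positivity)
      _ = _ := by rw [← hxx]; field_simp; ring
  have hδη : 4 * (1 / (N:ℝ)) * η ≤ 12 * (η / x) := by
    calc 4 * (1 / (N:ℝ)) * η ≤ 4 * (3 / x) * η :=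
          mul_le_mul_of_nonneg_right (mul_le_mul_of_nonneg_left hN' (by norm_num)) hη.le
      _ = _ := by ring
  rw [mul_div_assoc] at hinv
  have : 2 * η / (K:ℝ) = 2 * (η / K) := mul_div_assoc _ _ _
  linarith

end Vale.Agent.P036
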