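import Mathlib

/-! Small triangles in planar point sets with large additive energy. -/

namespace Vale.Agent.P036

open Finset
open scoped Pointwise

/-- the grid cell of side `1/N` containing `p` -/
noncomputable def cell (N : ℕ) (p : ℝ × ℝ) : ℤ × ℤ := (⌊(N:ℝ) * p.1⌋, ⌊(N:ℝ) * p.2⌋)

/-- twice the signed area -/
def det (u v : ℝ × ℝ) : ℝ := u.1 * v.2 - u.2 * v.1

lemma det_sub (u v w : ℝ × ℝ) : det u (v - w) = det u v - det u w := by
  simp only [det, Prod.fst_sub, Prod.snd_sub]; ring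

lemma det_self (u : ℝ × ℝ) : det u u = 0 := by simp only [det]; ring

lemma floor_close {a b : ℝ} (h : |a - b| ≤ 1) : ⌊a⌋ ∈ ({⌊b⌋ - 1, ⌊b⌋, ⌊b⌋ + 1} : Finset ℤ) := by
  obtain ⟨h1, h2⟩ := abs_le.1 h
  have l : ⌊b⌋ - 1 ≤ ⌊a⌋ := by
    rw [← Int.floor_sub_one]; exact Int.floor_le_floor (by linarith)
  have r : ⌊a⌋ ≤ ⌊b⌋ + 1 := by
    rw [← Int.floor_add_one]; exact Int.floor_le_floor (by linarith)
  simp only [mem_insert, mem_singleton]; omega

lemma cell_diam {N : ℕ} {a b : ℝ × ℝ} (h : cell N a = cell N b) :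
    |(N:ℝ) * (b - a).1| ≤ 1 ∧ |(N:ℝ) * (b - a).2| ≤ 1 := by
  simp only [cell, Prod.mk.injEq] at h
  constructor <;> simp only [Prod.fst_sub, Prod.snd_sub, mul_sub] <;> rw [abs_sub_comm]
  · exact (Int.abs_sub_lt_one_of_floor_eq_floor h.1).le
  · exact (Int.abs_sub_lt_one_of_floor_eq_floor h.2).le

lemma cell_card_le {N : ℕ} (P : Finset (ℝ × ℝ))
    (hP : ∀ p ∈ P, p.1 ∈ Set.Icc (0:ℝ) 1 ∧ p.2 ∈ Set.Icc (0:ℝ) 1) :
    (P.image (cell N)).card ≤ (N + 1) * (N + 1) := by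
  have h : P.image (cell N) ⊆ Icc (0:ℤ) N ×ˢ Icc (0:ℤ) N := by
    intro c hc
    obtain ⟨p, hp, rfl⟩ := mem_image.1 hc
    obtain ⟨⟨a1, a2⟩, b1, b2⟩ := hP p hp
    simp only [cell, mem_product, mem_Icc]
    refine ⟨⟨Int.floor_nonneg.2 (by positivity), ?_⟩, Int.floor_nonneg.2 (by positivity), ?_⟩ <;>
      refine Int.floor_le_iff.2 (lt_of_le_of_lt (mul_le_of_le_one_right (Nat.cast_nonneg N) ‹_›) ?_) <;>
      simp
  refine (card_le_card h).trans (le_of_eq ?_)
  simp only [card_product, Int.card_Icc]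
  norm_num

/-- pigeonhole in an interval -/
lemma two_close (A : Finset (ℝ × ℝ)) (f : ℝ × ℝ → ℝ) {lo hi : ℝ} (hA : 2 ≤ A.card)
    (hf : ∀ a ∈ A, lo ≤ f a ∧ f a ≤ hi) :
    ∃ a ∈ A, ∃ b ∈ A, a ≠ b ∧ |f a - f b| ≤ (hi - lo) / (A.card - 1 : ℕ) := by
  set R := A.card - 1 with hR
  have hR1 : (1:ℝ) ≤ R := by exact_mod_cast (show 1 ≤ R by omega)
  obtain ⟨a0, ha0⟩ := card_pos.1 (show 0 < A.card by omega)
  by_cases hw : hi ≤ lo
  · obtain ⟨a, ha, b, hb, hab⟩ := one_lt_card.1 (show 1 < A.card by omega)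
    refine ⟨a, ha, b, hb, hab, le_of_eq ?_⟩
    obtain ⟨x1, x2⟩ := hf a ha; obtain ⟨y1, y2⟩ := hf b hb
    rw [show hi - lo = 0 by linarith, show f a - f b = 0 by linarith]; simp
  push Not at hw
  set w := (hi - lo) / R
  have hw0 : 0 < w := div_pos (by linarith) (by linarith)
  set slot := fun a => min (⌊(f a - lo) / w⌋₊) (R - 1)
  have hRpos : 1 ≤ R := by omega
  obtain ⟨a, ha, b, hb, hab, he⟩ := exists_ne_map_eq_of_card_lt_of_maps_to (s := A) (t := range R)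
    (by rw [card_range]; omega) (f := slot) (fun a _ => mem_range.2 ((min_le_right _ _).trans_lt (by omega)))
  refine ⟨a, ha, b, hb, hab, ?_⟩
  have hs : ∀ c ∈ A, (slot c : ℝ) * w ≤ f c - lo ∧ f c - lo ≤ ((slot c : ℝ) + 1) * w := by
    intro c hc
    obtain ⟨c1, c2⟩ := hf c hc
    have hq : 0 ≤ (f c - lo) / w := div_nonneg (by linarith) hw0.le
    have h1 : (slot c : ℝ) ≤ (f c - lo) / w :=
      le_trans (by exact_mod_cast min_le_left _ _) (Nat.floor_le hq)
    refine ⟨(le_div_iff₀ hw0).1 h1, ?_⟩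
    rw [← div_le_iff₀ hw0]
    by_cases hcase : ⌊(f c - lo) / w⌋₊ ≤ R - 1
    · simp only [slot, min_eq_left hcase]; exact (Nat.lt_floor_add_one _).le
    · simp only [slot, min_eq_right (not_le.1 hcase).le]
      rw [Nat.cast_sub (by omega : 1 ≤ R), Nat.cast_one, sub_add_cancel, div_le_iff₀ hw0]
      simp only [w]; rw [mul_div_cancel₀]
      · linarith
      · linarith
  obtain ⟨x1, x2⟩ := hs a ha; obtain ⟨y1, y2⟩ := hs b hb
  have he' : (slot a : ℝ) = slot b := by exact_mod_cast he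
  rw [he'] at x1 x2
  rw [abs_le]; constructor <;> linarith

/-- a translate shared by many points forces a thin triangle -/
lemma triangle_of_translate {P : Finset (ℝ × ℝ)}
    (hP : ∀ p ∈ P, p.1 ∈ Set.Icc (0:ℝ) 1 ∧ p.2 ∈ Set.Icc (0:ℝ) 1) (hn : 3 ≤ P.card)
    {u : ℝ × ℝ} (hu : u ≠ 0) {δ : ℝ} (h1 : |u.1| ≤ δ) (h2 : |u.2| ≤ δ)
    (A : Finset (ℝ × ℝ)) (hA1 : A.Nonempty) (hA : ∀ a ∈ A, a ∈ P ∧ a + u ∈ P) :
    ∃ p ∈ P, ∃ q ∈ P, ∃ r ∈ P, p ≠ q ∧ p ≠ r ∧ q ≠ r ∧ |det (q - p) (r - p)| ≤ 8 * δ / A.card := by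
  have hδ : 0 ≤ δ := (abs_nonneg _).trans h1
  have hb : ∀ x ∈ P, -(2 * δ) ≤ det u x ∧ det u x ≤ 2 * δ := by
    intro x hx
    obtain ⟨⟨a1, a2⟩, b1, b2⟩ := hP x hx
    obtain ⟨c1, c2⟩ := abs_le.1 (show |u.1 * x.2| ≤ δ by
      rw [abs_mul, abs_of_nonneg b1]; exact (mul_le_of_le_one_right (abs_nonneg _) b2).trans h1)
    obtain ⟨d1, d2⟩ := abs_le.1 (show |u.2 * x.1| ≤ δ by
      rw [abs_mul, abs_of_nonneg a1]; exact (mul_le_of_le_one_right (abs_nonneg _) a2).trans h2)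
    simp only [det]; constructor <;> linarith
  by_cases hA2 : 2 ≤ A.card
  · obtain ⟨a, ha, b, hb', hab, hd⟩ := two_close A (det u) (lo := -(2 * δ)) (hi := 2 * δ) hA2 fun a ha => hb a (hA a ha).1
    obtain ⟨haP, hauP⟩ := hA a ha
    obtain ⟨hbP, hbuP⟩ := hA b hb'
    have hle : (2 * δ - -(2 * δ)) / ((A.card - 1 : ℕ) : ℝ) ≤ 8 * δ / A.card := by
      have e1 : (2:ℝ) ≤ A.card := by exact_mod_cast hA2
      rw [Nat.cast_sub (by omega : 1 ≤ A.card), Nat.cast_one, div_le_div_iff₀ (by linarith) (by linarith)]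
      have := mul_nonneg hδ (by linarith : (0:ℝ) ≤ (A.card:ℝ) - 2)
      linarith
    by_cases hcase : b = a + u
    · refine ⟨a, haP, a + u, hauP, b + u, hbuP, ?_, ?_, ?_, ?_⟩
      · intro h; exact hu (by simpa using h)
      · intro h; rw [hcase] at h
        have : u + u = 0 := by simpa [add_assoc] using h
        exact hu (by ext <;> [have := congrArg Prod.fst this; have := congrArg Prod.snd this] <;> simp at this ⊢ <;> linarith)
      · intro h; exact hab (add_right_cancel h)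
      · rw [hcase, show a + u - a = u by abel, show a + u + u - a = u + u by abel]
        simp only [det, Prod.fst_add, Prod.snd_add]
        rw [show u.1 * (u.2 + u.2) - u.2 * (u.1 + u.1) = 0 by ring, abs_zero]
        positivity
    · refine ⟨a, haP, a + u, hauP, b, hbP, ?_, hab, Ne.symm hcase, ?_⟩
      · intro h; exact hu (by simpa using h)
      · rw [show a + u - a = u by abel, det_sub, abs_sub_comm]
        exact hd.trans hle
  · obtain ⟨a, ha⟩ := hA1
    obtain ⟨haP, hauP⟩ := hA a ha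
    obtain ⟨c, hc⟩ : ((P.erase a).erase (a + u)).Nonempty := card_pos.1 (by
      have := pred_card_le_card_erase (a := a) (s := P)
      have := pred_card_le_card_erase (a := a + u) (s := P.erase a)
      omega)
    obtain ⟨hc1, hc2, hcP⟩ : c ≠ a + u ∧ c ≠ a ∧ c ∈ P := by simpa [and_assoc] using hc
    refine ⟨a, haP, a + u, hauP, c, hcP, ?_, Ne.symm hc2, Ne.symm hc1, ?_⟩
    · intro h; exact hu (by simpa using h)
    · have hcard : A.card = 1 := by have := card_pos.2 ⟨a, ha⟩; omega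
      rw [show a + u - a = u by abel, det_sub, hcard, Nat.cast_one, div_one, abs_le]
      obtain ⟨x1, x2⟩ := hb a haP; obtain ⟨y1, y2⟩ := hb c hcP
      constructor <;> linarith

/-- number of representations of `u` as a difference in `P` -/
noncomputable def reps (P : Finset (ℝ × ℝ)) (u : ℝ × ℝ) : ℕ := (P.filter fun x => x + u ∈ P).card

/-- energy is carried by short differences -/
lemma energy_le {P : Finset (ℝ × ℝ)} (N : ℕ) {R : ℝ} (hR0 : 0 ≤ R)
    (hR : ∀ a ∈ P, ∀ b ∈ P, cell N a = cell N b → a ≠ b → (reps P (b - a) : ℝ) ≤ R) :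
    (P.addEnergy P : ℝ) ≤ (P.card : ℝ) ^ 2 * ((P.image (cell N)).card + R) := by
  classical
  set cls := fun c => P.filter fun q => cell N q = c
  set cnt := fun c => ((cls c).card : ℝ)
  have hpos : ∀ c ∈ P.image (cell N), 0 < cnt c := fun c hc => by
    obtain ⟨p, hp, rfl⟩ := mem_image.1 hc
    exact Nat.cast_pos.2 (card_pos.2 ⟨p, mem_filter.2 ⟨hp, rfl⟩⟩)
  have hcnt : ∑ c ∈ P.image (cell N), cnt c = P.card := by
    simp only [cnt, cls]
    exact_mod_cast (card_eq_sum_card_image (cell N) P).symm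
  set rs := fun s c => (((cls c).filter fun a => s - a ∈ P).card : ℝ)
  have hr : ∀ s, ((((P ×ˢ P).filter fun z => z.1 + z.2 = s).card : ℕ) : ℝ) = ∑ c ∈ P.image (cell N), rs s c := by
    intro s
    have e : ((P ×ˢ P).filter fun z => z.1 + z.2 = s).card = (P.filter fun a => s - a ∈ P).card := by
      refine card_bij' (fun z _ => z.1) (fun a _ => (a, s - a)) (fun z hz => ?_) (fun a ha => ?_) (fun z hz => ?_) fun a _ => rfl
      · obtain ⟨hz', hs⟩ := mem_filter.1 hz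
        obtain ⟨h1, h2⟩ := mem_product.1 hz'
        exact mem_filter.2 ⟨h1, by rwa [← hs, add_sub_cancel_left]⟩
      · obtain ⟨h1, h2⟩ := mem_filter.1 ha
        exact mem_filter.2 ⟨mem_product.2 ⟨h1, h2⟩, add_sub_cancel a s⟩
      · obtain ⟨-, hs⟩ := mem_filter.1 hz
        exact Prod.ext rfl (by simp [← hs])
    have e2 := card_eq_sum_card_fiberwise (f := cell N) (s := P.filter fun a => s - a ∈ P) (t := P.image (cell N))
      fun a ha => mem_image_of_mem _ (mem_filter.1 ha).1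
    rw [e, e2]
    push_cast
    exact sum_congr rfl fun c _ => by simp only [rs, cls, filter_filter, and_comm]
  have hE : (P.addEnergy P : ℝ) ≤ (P.card : ℝ) * ∑ s ∈ P + P, ∑ c ∈ P.image (cell N), rs s c ^ 2 / cnt c := by
    rw [addEnergy_eq_sum_sq', Nat.cast_sum, mul_sum]
    refine sum_le_sum fun s _ => ?_
    rw [Nat.cast_pow, hr]
    have h := sq_sum_div_le_sum_sq_div (P.image (cell N)) (rs s) hpos
    rw [hcnt] at h
    rcases P.eq_empty_or_nonempty with h0 | h0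
    · simp [h0]
    rw [div_le_iff₀ (by exact_mod_cast card_pos.2 h0)] at h
    linarith
  have hsq : ∀ s c, rs s c ^ 2 = ∑ a ∈ cls c, ∑ b ∈ cls c,
      (if s - a ∈ P then (1:ℝ) else 0) * (if s - b ∈ P then 1 else 0) := fun s c => by
    rw [← sum_mul_sum, sq]
    simp only [rs, sum_boole]
  have hswap : ∑ s ∈ P + P, ∑ c ∈ P.image (cell N), rs s c ^ 2 / cnt c ≤
      ∑ a ∈ P, ∑ b ∈ cls (cell N a), (reps P (b - a) : ℝ) / cnt (cell N a) := by
    rw [sum_comm, ← sum_fiberwise_of_maps_to (t := P.image (cell N)) (g := cell N)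
      (fun a ha => mem_image_of_mem _ ha) (fun a => ∑ b ∈ cls (cell N a), (reps P (b - a) : ℝ) / cnt (cell N a))]
    refine sum_le_sum fun c hc => ?_
    simp only [hsq, sum_div]
    rw [sum_comm]
    refine sum_le_sum fun a ha => ?_
    obtain ⟨-, hac⟩ := mem_filter.1 ha
    rw [hac, sum_comm]
    refine sum_le_sum fun b _ => ?_
    rw [← sum_div]
    refine div_le_div_of_nonneg_right ?_ (hpos c hc).le
    simp only [boole_mul, ← ite_and, sum_boole]
    refine Nat.cast_le.2 (card_le_card_of_injOn (fun s => s - b) (fun s hs => ?_) fun s _ t _ h => sub_left_injective h)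
    obtain ⟨-, h1, h2⟩ := mem_filter.1 hs
    exact mem_filter.2 ⟨h2, by rwa [show s - b + (b - a) = s - a by abel]⟩
  refine hE.trans ?_
  have hrow : ∀ a ∈ P, ∑ b ∈ cls (cell N a), (reps P (b - a) : ℝ) / cnt (cell N a) ≤
      P.card * (cnt (cell N a))⁻¹ + R := by
    intro a ha
    have ha' : a ∈ cls (cell N a) := mem_filter.2 ⟨ha, rfl⟩
    have hc0 := hpos _ (mem_image_of_mem (cell N) ha)
    rw [← add_sum_erase _ _ ha', sub_self]
    refine add_le_add ?_ ?_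
    · rw [div_eq_mul_inv]
      refine mul_le_mul_of_nonneg_right (Nat.cast_le.2 (card_filter_le _ _)) (inv_nonneg.2 hc0.le)
    · refine (sum_le_card_nsmul _ _ (R / cnt (cell N a)) fun b hb => ?_).trans ?_
      · obtain ⟨hne, hb'⟩ := mem_erase.1 hb
        obtain ⟨hbP, hbc⟩ := mem_filter.1 hb'
        exact div_le_div_of_nonneg_right (hR a ha b hbP hbc.symm (Ne.symm hne)) hc0.le
      · rw [nsmul_eq_mul, mul_div_assoc', div_le_iff₀ hc0, mul_comm]
        exact mul_le_mul_of_nonneg_left (Nat.cast_le.2 (card_erase_le (a := a))) hR0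
  have hinv : ∑ a ∈ P, (cnt (cell N a))⁻¹ = ((P.image (cell N)).card : ℝ) := by
    rw [← sum_fiberwise_of_maps_to (t := P.image (cell N)) (g := cell N)
      (fun a ha => mem_image_of_mem _ ha) (fun a => (cnt (cell N a))⁻¹), card_eq_sum_ones, Nat.cast_sum]
    refine sum_congr rfl fun c hc => ?_
    rw [sum_congr rfl (fun a ha => by rw [(mem_filter.1 ha).2]), sum_const, nsmul_eq_mul, Nat.cast_one]
    exact mul_inv_cancel₀ (hpos c hc).ne'
  calc (P.card : ℝ) * ∑ s ∈ P + P, ∑ c ∈ P.image (cell N), rs s c ^ 2 / cnt c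
      ≤ (P.card : ℝ) * ∑ a ∈ P, ((P.card : ℝ) * (cnt (cell N a))⁻¹ + R) :=
        mul_le_mul_of_nonneg_left (hswap.trans (sum_le_sum hrow)) (Nat.cast_nonneg _)
    _ = _ := by rw [sum_add_distrib, ← mul_sum, hinv, sum_const, nsmul_eq_mul]; ring

/-- Heilbronn triangles in sets with large additive energy -/
theorem small_triangle_energy (P : Finset (ℝ × ℝ))
    (hP : ∀ p ∈ P, p.1 ∈ Set.Icc (0:ℝ) 1 ∧ p.2 ∈ Set.Icc (0:ℝ) 1) (hn : 3 ≤ P.card) :
    ∃ p ∈ P, ∃ q ∈ P, ∃ r ∈ P, p ≠ q ∧ p ≠ r ∧ q ≠ r ∧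
      |(q.1 - p.1) * (r.2 - p.2) - (q.2 - p.2) * (r.1 - p.1)| / 2 ≤
        100 * ((P.card : ℝ) ^ 2 / P.addEnergy P) * Real.sqrt ((P.card : ℝ) ^ 2 / P.addEnergy P) := by
  classical
  have hn0 : (0:ℝ) < P.card := by exact_mod_cast (show 0 < P.card by omega)
  have hE0 : (0:ℝ) < P.addEnergy P := by exact_mod_cast addEnergy_self_pos (card_pos.1 (show 0 < P.card by omega))
  set ρ := (P.card : ℝ) ^ 2 / P.addEnergy P with hρ
  have hρ0 : 0 < ρ := by positivity
  set M := 1 / (2 * ρ) with hM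
  have hM0 : 0 < M := by positivity
  by_cases hbig : M < 9
  · have hρ18 : 1 / 18 < ρ := by
      rw [hM, div_lt_iff₀ (by positivity)] at hbig; linarith
    have hs : 1 / 5 ≤ Real.sqrt ρ := Real.le_sqrt_of_sq_le (by linarith)
    obtain ⟨p, hp⟩ := card_pos.1 (show 0 < P.card by omega)
    obtain ⟨q, hq, hqp⟩ := exists_mem_ne (show 1 < P.card by omega) p
    obtain ⟨r, hr⟩ : ((P.erase p).erase q).Nonempty := card_pos.1 (by
      have := pred_card_le_card_erase (a := p) (s := P)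
      have := pred_card_le_card_erase (a := q) (s := P.erase p)
      omega)
    obtain ⟨hr1, hr2, hrP⟩ : r ≠ q ∧ r ≠ p ∧ r ∈ P := by simpa [and_assoc] using hr
    refine ⟨p, hp, q, hq, r, hrP, Ne.symm hqp, Ne.symm hr2, Ne.symm hr1, ?_⟩
    have b : ∀ x ∈ P, |x.1 - p.1| ≤ 1 ∧ |x.2 - p.2| ≤ 1 := fun x hx => by
      obtain ⟨⟨a1, a2⟩, a3, a4⟩ := hP x hx
      obtain ⟨⟨b1, b2⟩, b3, b4⟩ := hP p hp
      exact ⟨abs_le.2 ⟨by linarith, by linarith⟩, abs_le.2 ⟨by linarith, by linarith⟩⟩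
    obtain ⟨x1, x2⟩ := b q hq; obtain ⟨y1, y2⟩ := b r hrP
    have hd : |(q.1 - p.1) * (r.2 - p.2) - (q.2 - p.2) * (r.1 - p.1)| ≤ 1 * 1 + 1 * 1 := by
      refine (abs_sub _ _).trans ?_
      rw [abs_mul, abs_mul]
      exact add_le_add (mul_le_mul x1 y2 (abs_nonneg _) zero_le_one) (mul_le_mul x2 y1 (abs_nonneg _) zero_le_one)
    have : 1 / 18 * (1 / 5) ≤ ρ * Real.sqrt ρ := mul_le_mul hρ18.le hs (by norm_num) hρ0.le
    linarith
  push Not at hbig
  set x := Real.sqrt M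
  have hx3 : 3 ≤ x := Real.le_sqrt_of_sq_le (by linarith)
  have hxx : x * x = M := Real.mul_self_sqrt hM0.le
  set N := ⌊x⌋₊ - 1
  have hfl : 3 ≤ ⌊x⌋₊ := Nat.le_floor (by exact_mod_cast hx3)
  have hN1 : (N:ℝ) + 1 ≤ x := by
    have h : N + 1 = ⌊x⌋₊ := by omega
    have h' : (N:ℝ) + 1 = (⌊x⌋₊ : ℝ) := by exact_mod_cast h
    rw [h']; exact Nat.floor_le (Real.sqrt_nonneg _)
  have hN3 : x ≤ 3 * (N:ℝ) := by
    have h : (N:ℝ) = (⌊x⌋₊ : ℝ) - 1 := by
      simp only [N]; rw [Nat.cast_sub (by omega), Nat.cast_one]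
    rw [h]; linarith [Nat.lt_floor_add_one x]
  have hN0 : (0:ℝ) < N := by linarith
  have hcells : ((P.image (cell N)).card : ℝ) ≤ M := by
    refine le_trans (Nat.cast_le.2 (cell_card_le (N := N) P hP)) (le_trans ?_ hxx.le)
    push_cast
    exact mul_le_mul hN1 hN1 (by linarith) (by linarith)
  obtain ⟨a, ha, b, hb, hc, hab, hrep⟩ : ∃ a ∈ P, ∃ b ∈ P, cell N a = cell N b ∧ a ≠ b ∧ M ≤ (reps P (b - a) : ℝ) := by
    by_contra hcon
    push Not at hcon
    have hlt : ∀ a ∈ P, ∀ b ∈ P, cell N a = cell N b → a ≠ b → (reps P (b - a) : ℝ) < M := hcon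
    by_cases hpair : ∃ a ∈ P, ∃ b ∈ P, cell N a = cell N b ∧ a ≠ b
    · set Z := (P ×ˢ P).filter fun z => cell N z.1 = cell N z.2 ∧ z.1 ≠ z.2
      have hZ : Z.Nonempty := by
        obtain ⟨a, ha, b, hb, h1, h2⟩ := hpair
        exact ⟨(a, b), mem_filter.2 ⟨mem_product.2 ⟨ha, hb⟩, h1, h2⟩⟩
      obtain ⟨z, hz, hzmax⟩ := exists_max_image Z (fun z => reps P (z.2 - z.1)) hZ
      obtain ⟨hz', hz1, hz2⟩ := mem_filter.1 hz
      have h := energy_le N (Nat.cast_nonneg (reps P (z.2 - z.1))) fun a ha b hb h1 h2 =>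
        Nat.cast_le.2 (hzmax (a, b) (mem_filter.2 ⟨mem_product.2 ⟨ha, hb⟩, h1, h2⟩))
      have h' := hlt z.1 (mem_product.1 hz').1 z.2 (mem_product.1 hz').2 hz1 hz2
      have : (P.card : ℝ) ^ 2 * ((P.image (cell N)).card + reps P (z.2 - z.1)) < (P.card : ℝ) ^ 2 * (M + M) :=
        mul_lt_mul_of_pos_left (by linarith) (by positivity)
      have e : (P.card : ℝ) ^ 2 * (M + M) = P.addEnergy P := by
        rw [hM, hρ]; field_simp; ring
      linarith
    · have h := energy_le N (le_refl (0:ℝ)) fun a ha b hb h1 h2 => absurd ⟨a, ha, b, hb, h1, h2⟩ hpair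
      have : (P.card : ℝ) ^ 2 * ((P.image (cell N)).card + 0) < (P.card : ℝ) ^ 2 * (M + M) :=
        mul_lt_mul_of_pos_left (by linarith) (by positivity)
      have e : (P.card : ℝ) ^ 2 * (M + M) = P.addEnergy P := by
        rw [hM, hρ]; field_simp; ring
      linarith
  obtain ⟨d1, d2⟩ := cell_diam hc
  set A := P.filter fun y => y + (b - a) ∈ P
  have hA : A.Nonempty := ⟨a, mem_filter.2 ⟨ha, by rwa [add_sub_cancel]⟩⟩
  obtain ⟨p, hp, q, hq, r, hr, h1, h2, h3, hdet⟩ := triangle_of_translate hP hn (sub_ne_zero.2 (Ne.symm hab))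
    (δ := 1 / N) (by rw [le_div_iff₀ hN0, mul_comm, ← abs_of_pos hN0, ← abs_mul]; exact d1)
    (by rw [le_div_iff₀ hN0, mul_comm, ← abs_of_pos hN0, ← abs_mul]; exact d2) A hA (fun y hy => mem_filter.1 hy)
  refine ⟨p, hp, q, hq, r, hr, h1, h2, h3, ?_⟩
  simp only [det, Prod.fst_sub, Prod.snd_sub] at hdet
  refine (div_le_div_of_nonneg_right hdet two_pos.le).trans ?_
  have hAM : M ≤ (A.card : ℝ) := hrep
  have hρM : ρ = 1 / (2 * M) := by rw [hM]; field_simp
  clear_value x M ρ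
  rw [show 8 * (1 / (N:ℝ)) / A.card / 2 = 4 / (N * A.card) by ring]
  refine (div_le_div_of_nonneg_left (by norm_num) (mul_pos (by linarith : (0:ℝ) < x / 3) hM0)
    (mul_le_mul (by linarith) hAM hM0.le hN0.le)).trans ?_
  have hsρ : 1 / (2 * x) ≤ Real.sqrt ρ := by
    refine Real.le_sqrt_of_sq_le ?_
    rw [hρM, div_pow, one_pow, div_le_div_iff₀ (by positivity) (by positivity), mul_pow, sq x, hxx]
    linarith
  refine le_trans ?_ (mul_le_mul_of_nonneg_left hsρ (by positivity))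
  rw [hρM]
  field_simp
  norm_num

/-- the same for sets with small doubling -/
theorem small_triangle_doubling (P : Finset (ℝ × ℝ)) (K : ℝ)
    (hP : ∀ p ∈ P, p.1 ∈ Set.Icc (0:ℝ) 1 ∧ p.2 ∈ Set.Icc (0:ℝ) 1) (hn : 3 ≤ P.card)
    (hK : ((P + P).card : ℝ) ≤ K * P.card) :
    ∃ p ∈ P, ∃ q ∈ P, ∃ r ∈ P, p ≠ q ∧ p ≠ r ∧ q ≠ r ∧
      |(q.1 - p.1) * (r.2 - p.2) - (q.2 - p.2) * (r.1 - p.1)| / 2 ≤
        100 * (K / P.card) * Real.sqrt (K / P.card) := by
  obtain ⟨p, hp, q, hq, r, hr, h1, h2, h3, h⟩ := small_triangle_energy P hP hn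
  refine ⟨p, hp, q, hq, r, hr, h1, h2, h3, h.trans ?_⟩
  have hn0 : (0:ℝ) < P.card := by exact_mod_cast (show 0 < P.card by omega)
  have hE0 : (0:ℝ) < P.addEnergy P := by exact_mod_cast addEnergy_self_pos (card_pos.1 (show 0 < P.card by omega))
  have hb : (P.card : ℝ) ^ 2 * (P.card : ℝ) ^ 2 ≤ (P + P).card * (P.addEnergy P : ℝ) := by
    exact_mod_cast le_card_add_mul_addEnergy P P
  have hle : (P.card : ℝ) ^ 2 / P.addEnergy P ≤ K / P.card := by
    rw [div_le_div_iff₀ hE0 hn0]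
    have h2 := hb.trans (mul_le_mul_of_nonneg_right hK hE0.le)
    refine le_of_mul_le_mul_right ?_ hn0
    linarith
  have h0 : 0 ≤ K / P.card := le_trans (by positivity) hle
  exact mul_le_mul (mul_le_mul_of_nonneg_left hle (by norm_num)) (Real.sqrt_le_sqrt hle) (Real.sqrt_nonneg _) (by positivity)

end Vale.Agent.P036
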